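import Vale.Agent.Lib.P154.Neg.Frame3

/-!
The data of a certificate, with all its checks.
-/

namespace Vale.Agent.Lib.P154.Neg.D1

open Vale.Agent.Lib.P154.Neg.Kron Vale.Agent.Lib.P154.Neg Vale.Agent.Lib.P154.Neg.Cst

/-- the data -/
def C : Cst where
  A := ⟨3, 3, 0, 3, 2, 1⟩
  a := (248, 27)
  b := (92, 3)
  c := (32, 1)
  r1 := (3, 4)
  r2 := (11, 12)
  rho1 := (0, 1)
  rho2 := (11, 12)
  g := (9, 2500)
  er := (49, 2000)
  kap := (197, 500)
  thm := (29, 20)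
  t1 := (0, 1)
  t2 := (1, 3)
  m0 := (4, 9)
  kp0 := (3, 2)
  W := (.add (.add (.add (.add (.mul (.rat (-25721) 1000000) (.pow (.var 1) 2)) (.mul (.rat (1) 2) (.var 0))) (.mul (.mul (.rat (7389) 500000) (.var 0)) (.var 1))) (.mul (.rat (10729) 500000) (.pow (.var 0) 2))) (.mul (.rat (2621) 500000) (.pow (.var 0) 3)))
  V1h := (.add (.add (.add (.add (.add (.add (.add (.add (.mul (.rat (-1) 16) (.var 1)) (.mul (.rat (1461) 500000) (.pow (.var 1) 2))) (.mul (.rat (1) 8) (.var 0))) (.mul (.mul (.rat (-20593) 1000000) (.var 0)) (.var 1))) (.mul (.mul (.rat (2677) 100000) (.var 0)) (.pow (.var 1) 2))) (.mul (.rat (16997) 1000000) (.pow (.var 0) 2))) (.mul (.mul (.rat (-2491) 500000) (.pow (.var 0) 2)) (.var 1))) (.mul (.rat (949) 250000) (.pow (.var 0) 3))) (.mul (.rat (1627) 500000) (.pow (.var 0) 4)))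
  V2h := (.add (.add (.add (.add (.mul (.rat (1) 216) (.var 1)) (.mul (.rat (-2161) 1000000) (.pow (.var 1) 2))) (.mul (.mul (.rat (259) 200000) (.var 0)) (.var 1))) (.mul (.rat (-567) 1000000) (.pow (.var 0) 2))) (.mul (.rat (-117) 500000) (.pow (.var 0) 3)))
  Xi := (.add (.add (.add (.add (.add (.add (.rat (35) 9) (.mul (.rat (-6332443) 1000000) (.var 0))) (.mul (.mul (.rat (6058897) 1000000) (.var 0)) (.var 1))) (.mul (.rat (36657) 10000) (.pow (.var 0) 2))) (.mul (.mul (.rat (-8550419) 1000000) (.pow (.var 0) 2)) (.var 1))) (.mul (.rat (-137509) 62500) (.pow (.var 0) 3))) (.mul (.mul (.rat (5321007) 1000000) (.pow (.var 0) 3)) (.var 1)))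
  Ek := (.add (.mul (.rat (3) 50) (.pow (.var 0) 2)) (.mul (.mul (.rat (-9) 100) (.pow (.var 0) 2)) (.var 1)))
  Sz := (.add (.add (.mul (.rat (1) 3) (.var 0)) (.mul (.rat (1) 9) (.pow (.var 0) 2))) (.mul (.rat (5) 81) (.pow (.var 0) 3)))
  a0 := 500
  b0 := 541
  c0 := 630
  bRho := (0, 1, 1)
  bBeta := (0, 2, 2)
  bT := (0, 1, 3)
  bKap := (0, 12, 8)
  bEps := (0, 1, 2)
  bSig := (0, 11, 9)
  bNu := (0, 9, 11)
  bTh := (0, 29, 20)
  bZ := (0, 11, 27)
  tX := (.s02 (.leaf [106, 3923, 145152] [36, 36, 36]) (.s12 (.leaf [119, 4404, 162949] [36, 36, 36]) (.leaf [119, 4404, 162949] [36, 36, 36])))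
  tY1 := (.s02 (.leaf [570, 27931, 1368620] [48, 48, 48]) (.s12 (.leaf [588, 28813, 1411838] [48, 48, 48]) (.leaf [590, 28911, 1416640] [48, 48, 48])))
  tY2 := (.leaf [421, 15578, 576387] [36, 36, 36])
  tM1 := (.leaf [11, 78, 547] [6, 6, 6])
  tM2 := (.leaf [10, 71, 498] [6, 6, 6])
  tN1 := (.leaf [13, 92, 645] [6, 6, 6])
  tN2 := (.leaf [12, 85, 596] [6, 6, 6])
  tQ1 := (.split 3 (6) (.split 1 (1) (.leaf [131, 2228, 20053, 200531, 1403718] [16, 8, 9, 6, 5]) (.split 3 (3) (.leaf [131, 2228, 20053, 200531, 1403718] [16, 8, 9, 6, 5]) (.leaf [132, 2245, 20206, 202061, 1414428] [16, 8, 9, 6, 5]))) (.split 3 (9) (.leaf [132, 2245, 20206, 202061, 1414428] [16, 8, 9, 6, 5]) (.leaf [133, 2262, 20359, 203591, 1425138] [16, 8, 9, 6, 5])))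
  tQ2 := (.leaf [200, 3401, 34011, 306100, 3061001] [16, 9, 8, 9, 5])
  tW := (.leaf [42, 295] [6, 6])
  tK := (.leaf [81, 568] [6, 5])
  tS1 := (.leaf [44, 221] [4, 4])
  tS2 := (.leaf [51, 256] [4, 4])
  tC := (.leaf [36, 145, 581] [3, 3, 4])
  tXi := (.leaf [52, 209] [3, 1])
  tE := (.leaf [16, 49] [2, 1])
  tZ := (.leaf [106] [9])

theorem cChord : checkAuto 2 C.eChord = true := by decide +kernel

theorem cX : checkCT C.A C.eX M0 C.tX = true := by decide +kernel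

theorem cY1 : checkCT C.A C.eY1 (MC C.a0 C.b0 C.c0) C.tY1 = true := by decide +kernel

theorem cY2 : checkCT C.A C.eY2 (MC C.a0 C.b0 C.c0) C.tY2 = true := by decide +kernel

theorem cM1 : checkCT C.A (psub (.var 0) (.var 2)) M0 C.tM1 = true := by decide +kernel

theorem cM2 : checkCT C.A (psub (.var 1) (.var 2)) M0 C.tM2 = true := by decide +kernel

theorem cN1 : checkCT C.A (psub (pk 1) (.var 0)) M0 C.tN1 = true := by decide +kernel

theorem cN2 : checkCT C.A (psub (pk 1) (.var 1)) M0 C.tN2 = true := by decide +kernel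

theorem wQ1 : PQ.wf 5 C.eQ1 = true := by decide +kernel

theorem cQ1 : checkTree 5 C.eQ1 [C.bRho, C.bBeta, C.bT, C.bKap, C.bEps] C.tQ1 = true := by decide +kernel

theorem wQ2 : PQ.wf 5 C.eQ2 = true := by decide +kernel

theorem cQ2 : checkTree 5 C.eQ2 [C.bSig, C.bNu, C.bBeta, C.bT, C.bEps] C.tQ2 = true := by decide +kernel

theorem wW : PQ.wf 2 C.eWp = true := by decide +kernel

theorem cW : checkTree 2 C.eWp [C.bRho, C.bBeta] C.tW = true := by decide +kernel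

theorem wK : PQ.wf 2 C.eKg = true := by decide +kernel

theorem cK : checkTree 2 C.eKg [C.bTh, C.bEps] C.tK = true := by decide +kernel

theorem wS1 : PQ.wf 2 C.eS1 = true := by decide +kernel

theorem cS1 : checkTree 2 C.eS1 [C.bTh, C.bEps] C.tS1 = true := by decide +kernel

theorem wS2 : PQ.wf 2 C.eS2 = true := by decide +kernel

theorem cS2 : checkTree 2 C.eS2 [C.bTh, C.bEps] C.tS2 = true := by decide +kernel

theorem wC : PQ.wf 3 (eRr (.var 2) (.var 0) (.var 1)) = true := by decide +kernel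

theorem cC : checkTree 3 (eRr (.var 2) (.var 0) (.var 1)) [C.bTh, C.bTh, C.bEps] C.tC = true := by decide +kernel

theorem wXi : PQ.wf 2 C.eXiE = true := by decide +kernel

theorem cXi : checkTree 2 C.eXiE [C.bTh, C.bEps] C.tXi = true := by decide +kernel

theorem wE : PQ.wf 2 C.Ek = true := by decide +kernel

theorem cE : checkTree 2 C.Ek [C.bTh, C.bEps] C.tE = true := by decide +kernel

theorem wZ1 : PQ.wf 1 C.eZ1 = true := by decide +kernel

theorem cZ1 : checkTree 1 C.eZ1 [C.bZ] C.tZ = true := by decide +kernel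

theorem wZ2 : PQ.wf 1 C.eZ2 = true := by decide +kernel

theorem cZ2 : checkTree 1 C.eZ2 [C.bZ] C.tZ = true := by decide +kernel

theorem wZ3 : PQ.wf 1 C.eZ3 = true := by decide +kernel

theorem cZ3 : checkTree 1 C.eZ3 [C.bZ] C.tZ = true := by decide +kernel

theorem wZ4 : PQ.wf 1 C.eZ4 = true := by decide +kernel

theorem cZ4 : checkTree 1 C.eZ4 [C.bZ] C.tZ = true := by decide +kernel

theorem iv_mk {l h : ℤ} {D : ℕ} {lo hi : ℝ} (h0 : 0 < D) (hl : l < h) (h1 : (l : ℝ) ≤ (D : ℝ) * lo)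
    (h2 : (D : ℝ) * hi ≤ (h : ℝ)) : Iv (l, h, D) lo hi := ⟨h0, hl, h1, h2⟩

/-- all checks together -/
theorem ok : C.OK where
  i1 := by decide
  i2 := by decide
  s1 := by decide
  s2 := by decide
  ha := by
    show 0 ≤ rv (248, 27)
    norm_num [rv]
  hb := by
    show 0 ≤ rv (92, 3)
    norm_num [rv]
  hc := by
    show 0 ≤ rv (32, 1)
    norm_num [rv]
  hg := by
    show 0 < rv (9, 2500)
    norm_num [rv]
  hr1 := by
    show 0 ≤ rv (3, 4)
    norm_num [rv]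
  hr2 := by
    show 0 ≤ rv (11, 12)
    norm_num [rv]
  hr1' := by
    show rv (3, 4) ≤ 1
    norm_num [rv]
  hr2' := by
    show rv (11, 12) ≤ 1
    norm_num [rv]
  ht1 := by
    show 0 ≤ rv (0, 1)
    norm_num [rv]
  ht2 := by
    show rv (1, 3) ≤ 1 / 2
    norm_num [rv]
  hkap := by
    show 0 ≤ rv (197, 500)
    norm_num [rv]
  hkp0 := by
    show 0 < rv (3, 2)
    norm_num [rv]
  hkapm := by
    show rv (197, 500) * (3 + 2 * rv (1, 3)) ≤ rv (29, 20)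
    norm_num [rv]
  hm0 := by
    show (1 + rv (1, 3)) / 3 ≤ rv (4, 9)
    norm_num [rv]
  hm20 := by
    show 2 * rv (4, 9) < 1
    norm_num [rv]
  hm0d := by decide
  ha0 := by decide
  hb0 := by decide
  hc0 := by decide
  hratio := by
    show rv (4, 9) * (((500 : ℤ) : ℝ)) ^ 6 ≤ (1 - 2 * rv (4, 9)) * (((630 : ℤ) : ℝ)) ^ 6
    norm_num [rv]
  cChord := cChord
  cX := cX
  cY1 := cY1
  cY2 := cY2
  cM1 := cM1
  cM2 := cM2
  cN1 := cN1
  cN2 := cN2
  iRho := by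
    show Iv (0, 1, 1) (0) (1)
    exact iv_mk (by norm_num) (by norm_num) (by norm_num [rv]) (by norm_num [rv])
  iBeta := by
    show Iv (0, 2, 2) (0) (1)
    exact iv_mk (by norm_num) (by norm_num) (by norm_num [rv]) (by norm_num [rv])
  iT := by
    show Iv (0, 1, 3) (rv (0, 1)) (rv (1, 3))
    exact iv_mk (by norm_num) (by norm_num) (by norm_num [rv]) (by norm_num [rv])
  iKap := by
    show Iv (0, 12, 8) (0) (rv (3, 2))
    exact iv_mk (by norm_num) (by norm_num) (by norm_num [rv]) (by norm_num [rv])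
  iEps := by
    show Iv (0, 1, 2) (0) (1 / 2)
    exact iv_mk (by norm_num) (by norm_num) (by norm_num [rv]) (by norm_num [rv])
  iTh := by
    show Iv (0, 29, 20) (0) (rv (29, 20))
    exact iv_mk (by norm_num) (by norm_num) (by norm_num [rv]) (by norm_num [rv])
  iZ := by
    show Iv (0, 11, 27) (0) ((rv (1, 3)) ^ 2 * (3 + 2 * rv (1, 3)))
    exact iv_mk (by norm_num) (by norm_num) (by norm_num [rv]) (by norm_num [rv])
  iSig := by
    show (0 : ℤ) < 11 ∧ ((0 : ℤ) : ℝ) ≤ 0 ∧ 0 < 9 ∧ 0 ≤ ((11 : ℤ) : ℝ) ∧ ((9 : ℕ) : ℝ) ^ 2 * rv (29, 20) ≤ ((11 : ℤ) : ℝ) ^ 2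
    norm_num [rv]
  iNu := by
    show (0 : ℤ) < 9 ∧ ((0 : ℤ) : ℝ) ≤ 0 ∧ 0 < 11 ∧ 0 ≤ ((9 : ℤ) : ℝ) ∧ ((11 : ℕ) : ℝ) ^ 2 ≤ ((9 : ℤ) : ℝ) ^ 2 * rv (3, 2)
    norm_num [rv]
  wQ1 := wQ1
  cQ1 := cQ1
  wQ2 := wQ2
  cQ2 := cQ2
  wW := wW
  cW := cW
  wK := wK
  cK := cK
  wS1 := wS1
  cS1 := cS1
  wS2 := wS2
  cS2 := cS2
  wC := wC
  cC := cC
  wXi := wXi
  cXi := cXi
  wE := wE
  cE := cE
  wZ1 := wZ1
  cZ1 := cZ1
  wZ2 := wZ2
  cZ2 := cZ2
  wZ3 := wZ3
  cZ3 := cZ3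
  wZ4 := wZ4
  cZ4 := cZ4

/-- the hypotheses of the abstract theorem -/
theorem good : C.toData.Good := Cst.good ok

end Vale.Agent.Lib.P154.Neg.D1
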